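import Vale.Agent.P004F.Ra.Ra
import Vale.Agent.P004F.St
import Vale.Agent.P004F.En.Rep
import Vale.Agent.P004S.Gal1

/-!
# P004F, block RA: the action at finite level is conjugate self dual; isotropy at finite level
-/

set_option linter.all false

noncomputable section

namespace Vale.Agent.P004F.Ra

open NumberField Matrix Filter
open Vale.Agent.P022 Vale.Agent.P022K
open Vale.Agent.P022K.G2 (In St ip)
open Vale.Agent.P004K (RC1 RC2 Hc Iq)
open Vale.Agent.P022D.W (dec)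
open Vale.Agent.P022.H443 (inP)
open Vale.Agent.P022E.GW (Ov Fb Gn)
open Vale.Agent.P027M.S (Inert)
open P004S (nu kn)
open P004T (ds)
open Pr (ac ac_add ac_smul ac_zero Gd)
open Rc (Cy)
open scoped Pointwise Classical

section field
variable {K : Type} [Field K] [NumberField K] {j : K →+* Qb}

theorem conj_out (h : Iq K) {c : GQ} (hc : IsConj c) : c ∉ GK j := fun m => by
  obtain ⟨φ, hφ⟩ := hc
  exact h.im.false (ComplexEmbedding.IsReal.embedding (φ := φ.comp j)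
    (ComplexEmbedding.isReal_iff.2 (RingHom.ext fun x =>
      ((hφ (j x)).symm.trans (congrArg φ (m x)) :))))

theorem gk_cx (h : Iq K) (w : InfinitePlace Qb) : GK j ⊓ St (ip w) = ⊥ := by
  obtain ⟨c, hc⟩ := G2.ex_conj w.embedding
  have e := G2.st_conj hc
  rw [InfinitePlace.mk_embedding] at e
  refine eq_bot_iff.2 fun g hg => ?_
  have m : g ∈ ({1, c} : Set GQ) := e ▸ hg.2
  rcases m with rfl | rfl
  · exact one_mem _
  · exact absurd hg.1 (conj_out h ⟨_, hc⟩)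

theorem gk_idx (h : Iq K) {c : GQ} (hc : IsConj c) : (GK j).index = 2 :=
  Subgroup.index_eq_two_iff.2 ⟨c, fun g => by
    by_cases m : g ∈ GK j
    · exact .inr ⟨m, fun k => conj_out h hc (((GK j).mul_mem_cancel_left m).1 k)⟩
    · exact .inl ⟨H20.mul_mem' h.two m (conj_out h hc), m⟩⟩

theorem unr_hc (r2 : RC2) (h : Iq K) {c l : ℕ} (hc : 0 < c) {P : Ideal (𝓞 Qb)} (ho : Ov l P)
    (hl : ¬ l ∣ c) {g : GQ} (k : g ∈ GK j) (i : Inert P g) : g ∈ Hc j c := by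
  obtain ⟨-, -, -, -, a, -, b⟩ := r2 K j h c hc
  have d := b P ho.2.1 (fun e => ho.1.ne_zero (by simpa [e] using ho.2.2))
    (fun m => hl (by exact_mod_cast P004S.ov_dvd ho (a := c) (by exact_mod_cast m))) g k 0
    fun x => by rw [pow_zero, pow_one]; exact i x
  rw [pow_zero, Ideal.one_eq_top] at d
  exact (a _ g ⟨top_ne_bot, top_sup_eq _⟩ d).2 ⟨1, 0, by simp⟩

end field

theorem two_Rj (j : ℕ) : (2 : Rj j) ^ j = 0 := by
  have := Ideal.Quotient.eq_zero_iff_mem.2 (Pat.two_Im j)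
  rwa [map_pow, map_ofNat] at this

theorem two_Rj' (j : ℕ) : (2 : Rj j) ^ (j + 1) = 0 := by rw [pow_succ, two_Rj, zero_mul]

theorem cj_dvd {j : ℕ} {x : ℤ_[2]} (h : (2 : ℤ_[2]) ^ j ∣ x) : cj j x = 0 := by
  obtain ⟨y, rfl⟩ := h
  rw [map_mul, map_pow, map_ofNat, two_Rj, zero_mul]

theorem sd_mul (d : ℤ) (g h : GQ) : sd d (g * h) = sd d g * sd d h := by
  unfold sd
  rw [P004S.nu_mul]
  rcases P004S.z2 (nu d g) with a | a <;> rcases P004S.z2 (nu d h) with b | b <;> rw [a, b] <;> decide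

theorem sd_sq (d : ℤ) (g : GQ) : sd d g * sd d g = 1 := by unfold sd; split <;> rfl

theorem sd_zero {d : ℤ} {g : GQ} (h : nu d g = 0) : sd d g = 1 := if_pos h

theorem sd_conj (d : ℤ) (c g : GQ) : sd d (c⁻¹ * g * c) = sd d g := by
  have := P004S.nu_conj d c⁻¹ g
  rw [inv_inv] at this
  unfold sd
  rw [this]

variable {e : Crv}

theorem S_prime {p : ℕ} (h : p ∈ e.S) : p.Prime := (e.ov p h).1

theorem rep (e : Crv) : P004S.Rep e.rp e.S.toFinset :=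
  En.rep_ok _ (List.mem_toFinset.2 e.two) fun l hl h d => by
    rw [List.mem_toFinset] at h
    refine ((Nat.prime_iff_prime_int.1 hl).dvd_or_dvd d).elim (fun k => h ?_) (e.bad l hl h).2.1
    rw [(Nat.prime_dvd_prime_iff_eq hl Nat.prime_two).1 (by exact_mod_cast k)]
    exact e.two

/-- the representation at level `j` -/
def rj (e : Crv) (j : ℕ) : GQ →* M2 (Rj j) := (RingHom.mapMatrix (cj j)).toMonoidHom.comp e.r

theorem rj_apply (j : ℕ) (g : GQ) : rj e j g = (e.r g).map (cj j) := rfl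

theorem rj_one {j : ℕ} {g : GQ} (h : ∀ i i', (2 : ℤ_[2]) ^ j ∣ (e.r g - 1) i i') : rj e j g = 1 := by
  ext i i'
  have := cj_dvd (h i i')
  rw [Matrix.sub_apply, map_sub, sub_eq_zero] at this
  refine this.trans ?_
  simp only [one_apply]
  split
  exacts [map_one _, map_zero _]

theorem rj_open (e : Crv) (j : ℕ) : IsOpen ((rj e j).ker : Set GQ) := by
  refine Subgroup.isOpen_of_mem_nhds _ (g := 1) ?_
  have : ∀ i i', ∀ᶠ g in nhds 1, (2 : ℤ_[2]) ^ j ∣ (e.r g - 1) i i' := fun i i' => by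
    have c : Continuous fun g => e.r g i i' := P004M.TE.cont_mt _ i i'
    filter_upwards [c.continuousAt (x := 1) (Metric.closedBall_mem_nhds _
      (show (0 : ℝ) < 2 ^ (-j : ℤ) by positivity))] with g hg
    rw [Set.mem_preimage, map_one, mem_closedBall_iff_norm] at hg
    exact Pat.dvd_iff_norm.2 hg
  filter_upwards [eventually_all.2 fun i => eventually_all.2 (this i)] with g hg using rj_one hg

theorem r_inert {l : ℕ} {P : Ideal (𝓞 Qb)} (ho : Ov l P) (hl : l ∉ e.S) {g : GQ} (hg : Inert P g) :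
    e.r g = 1 := by
  have := (rep e).mt_inert ho (by simpa using hl) hg
  ext i i'
  refine Subtype.ext ((congrFun (congrFun this i) i').trans ?_)
  simp only [one_apply]
  split <;> rfl

theorem nu_inert {l : ℕ} {P : Ideal (𝓞 Qb)} (ho : Ov l P) (hl : l ∉ e.S) {g : GQ} (hg : Inert P g) :
    nu (ds e.δ) g = 0 := by
  refine P004S.nu_inert ho (fun k => hl (k ▸ e.two)) (fun d => (e.bad l ho.1 hl).1 ?_) hg
  have u : IsUnit (P004Z.eps e.δ) := by
    have := jacobiSym.sq_one (a := -1) (b := e.δ) (by simp)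
    exact IsUnit.of_pow_eq_one this two_ne_zero
  exact Dvd.dvd.mul_left (by exact_mod_cast u.dvd_mul_left.1 d) _

/-- the determinant is cyclotomic -/
theorem det_dvd (e : Crv) {n k : ℕ} {g : GQ} (h : Cy n g k) : (2 : ℤ_[2]) ^ n ∣ (e.r g).det - k := by
  obtain ⟨ζ, hζ⟩ := P004S.Aq.ex_prim n
  set x := (e.r g).det with hx
  have e0 : P004S.ep e.rp g = x := by
    rw [P004S.ep, P004S.mt, Crv.rp, P004M.TE.rep_val, ← RingHom.map_det]; rfl
  have s := Ideal.mem_span_singleton.1 (x.appr_spec n)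
  have e1 := P004S.cyc_ep _ _ (rep e) g n (x.appr n) ζ hζ.pow_eq_one (by
    have := (PadicInt.norm_le_pow_iff_mem_span_pow _ n).2 (x.appr_spec n)
    rw [e0, ← PadicInt.coe_natCast, ← PadicInt.coe_sub, PadicInt.padic_norm_e_of_padicInt]
    simpa using this)
  have := (isOfFinOrder_iff_pow_eq_one.2 ⟨_, by positivity, hζ.pow_eq_one⟩).pow_eq_pow_iff_modEq.1
    (e1.symm.trans (h ζ hζ.pow_eq_one))
  rw [← hζ.eq_orderOf] at this
  have d : (2 : ℤ_[2]) ^ n ∣ (k : ℤ_[2]) - x.appr n := by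
    exact_mod_cast (Int.cast_dvd_cast (α := ℤ_[2]) _ _ this.dvd :)
  rw [← sub_sub_sub_cancel_right x k (x.appr n)]
  exact dvd_sub (by simpa using s) d

theorem det_rj {j n k : ℕ} (hn : j ≤ n) {g : GQ} (h : Cy n g k) : (rj e j g).det = k := by
  have := cj_dvd ((pow_dvd_pow _ hn).trans (det_dvd e h))
  rw [map_sub, map_natCast, sub_eq_zero, RingHom.map_det] at this
  exact this

theorem tr_conj {c : GQ} (hc : IsConj c) : (e.r c).trace = 0 := by
  have a : e.r c * e.r c = 1 := by rw [← map_mul, P004M.TE.conj_sq (hq e.par.disc) hc, map_one]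
  have d : (e.r c).det = -1 := P004M.TE.det_conj _ hc
  have a0 := congrFun (congrFun a 0) 0
  have a1 := congrFun (congrFun a 1) 1
  simp only [mul_apply, Fin.sum_univ_two, one_apply_eq] at a0 a1
  rw [det_fin_two] at d
  rw [trace_fin_two]
  exact pow_eq_zero_iff two_ne_zero |>.1 (by linear_combination a0 + a1 + 2 * d)

variable {b : Fld e} {j c : ℕ} {Ψ : GQ → Rj j}

theorem c_sq (b : Fld e) : b.c * b.c = 1 := P004M.TE.conj_sq (hq e.par.disc) b.cc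

theorem c_inv (b : Fld e) : b.c⁻¹ = b.c := inv_eq_of_mul_eq_one_right (c_sq b)

theorem c_out (b : Fld e) : b.c ∉ b.Γ := conj_out b.iq b.cc

theorem map_zs {R S : Type} [CommRing R] [CommRing S] (f : R →+* S) (u : S) (n : ℤ) (A : M2 R) :
    u • (n • A).map f = (u * n) • A.map f := by
  ext i i'
  rw [Matrix.smul_apply, Matrix.smul_apply, map_apply, map_apply, Matrix.smul_apply, map_zsmul,
    zsmul_eq_mul, smul_eq_mul, smul_eq_mul, mul_assoc]

theorem sm_mul {R : Type} [CommRing R] (u v u' v' : R) (A B : M2 R) :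
    (u * u' * (v * v')) • (A * B) = (u * v) • A * (u' * v') • B := by
  rw [smul_mul_smul_comm, mul_mul_mul_comm]

theorem aa_eq (b : Fld e) (Ψ : GQ → Rj j) (g : GQ) :
    b.aa j Ψ g = (Ψ g * sd (ds e.δ) g) • rj e j g := map_zs ..

theorem Chr.pos (h : b.Chr j c Ψ) : 0 < c := Nat.pos_of_ne_zero h.sq.ne_zero

theorem T_prime {l : ℕ} (h : l ∈ b.T c) : l.Prime :=
  (Finset.mem_union.1 h).elim (fun k => S_prime (List.mem_toFinset.1 k)) Nat.prime_of_mem_primeFactors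

theorem aa_mul (h : b.Chr j c Ψ) {g g' : GQ} (m : g ∈ b.Γ) (m' : g' ∈ b.Γ) :
    b.aa j Ψ (g * g') = b.aa j Ψ g * b.aa j Ψ g' := by
  rw [aa_eq, aa_eq, aa_eq, h.mul g m g' m', sd_mul, map_mul, Int.cast_mul, sm_mul]

theorem aa_one {g : GQ} (h1 : Ψ g = 1) (h2 : nu (ds e.δ) g = 0) (h3 : rj e j g = 1) :
    b.aa j Ψ g = 1 := by
  rw [aa_eq, h1, sd_zero h2, h3]; simp

theorem aa_unr (r2 : RC2) (h : b.Chr j c Ψ) {l : ℕ} {P : Ideal (𝓞 Qb)} (ho : Ov l P)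
    (hl : l ∉ b.T c) {g : GQ} (m : g ∈ b.Γ) (hg : Inert P g) : b.aa j Ψ g = 1 := by
  have n1 : l ∉ e.S := fun k => hl (Finset.mem_union_left _ (List.mem_toFinset.2 k))
  refine aa_one (h.ker g (unr_hc r2 b.iq (Chr.pos h) ho (fun d => hl (Finset.mem_union_right _
    (Nat.mem_primeFactors.2 ⟨ho.1, d, h.sq.ne_zero⟩))) m hg)) (nu_inert ho n1 hg) ?_
  rw [rj_apply, r_inert ho n1 hg]
  exact (RingHom.mapMatrix (cj j)).map_one

/-- **the action is good** -/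
theorem gd (r1 : RC1) (r2 : RC2) (h : b.Chr j c Ψ) {T : Finset ℕ} (le : b.T c ⊆ T)
    (pr : ∀ l ∈ T, l.Prime) : Gd b.Γ T (b.aa j Ψ) where
  opn := H916.isOpen_GK _
  idx := gk_idx b.iq b.cc
  cx := gk_cx b.iq
  two := le (Finset.mem_union_left _ (List.mem_toFinset.2 e.two))
  pr := pr
  one := aa_one (h.ker 1 (one_mem _)) (P004S.nu_one _) (map_one _)
  mul g m g' m' := aa_mul h m m'
  lc := ⟨Hc b.j c ⊓ kn (ds e.δ) ⊓ (rj e j).ker,
    ((r1 _ _ b.iq c (Chr.pos h)).2.1.inter (P004S.kn_open _)).inter (rj_open e j),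
    fun w _ m => aa_one (h.ker w m.1.1) m.1.2 m.2⟩
  unr g m := fun ⟨l, hl, P, ho, hg⟩ => aa_unr r2 h ho (fun k => hl (le k)) m hg

theorem psi_cj (r1 : RC1) (h : b.Chr j c Ψ) {s g : GQ} (hs : s ∉ b.Γ) (m : g ∈ b.Γ) :
    Ψ (s⁻¹ * g * s) * Ψ g = 1 := by
  have a := (r1 _ _ b.iq c (Chr.pos h)).2.2.2.2.1 s⁻¹ (by simpa using hs) g m
  rw [inv_inv] at a
  rw [← h.mul _ (by simpa using b.Γ.mul_mem a.1 (b.Γ.inv_mem m)) g m, h.ker _ a]

/-- **the action is conjugate self dual** -/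
theorem sdu (r1 : RC1) (h : b.Chr j c Ψ) {N : ℕ} (hN : j ≤ N) :
    Sd N b.Γ b.c (rj e j) (fun g => Ψ g * sd (ds e.δ) g) (b.aa j Ψ) where
  two := pow_eq_zero_of_le hN (two_Rj j)
  out := c_out b
  eq g _ := aa_eq b Ψ g
  mul := map_mul _
  det g _ k hk := det_rj hN hk
  cj g m := by
    rw [mul_mul_mul_comm, psi_cj r1 h (c_out b) m, sd_conj, ← Int.cast_mul, sd_sq]; simp

section
variable (k : b.Kp j c Ψ)

theorem kp_mem : b.c * k.φ ∈ b.Γ := H20.mul_mem' b.iq.two (c_out b) k.kp.out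

theorem kp_eq : k.φ = b.c * (b.c * k.φ) := by rw [← mul_assoc, c_sq, one_mul]

/-- the Frobenius element acts as the complex conjugation -/
theorem kp_rj : rj e j k.φ = (e.r b.c).map (cj j) := by
  rw [kp_eq k, map_mul, rj_one (g := b.c * k.φ) fun i i' => (pow_dvd_pow _ j.le_succ).trans (k.tr i i'),
    mul_one, rj_apply]

theorem kp_tr : (rj e j k.φ).trace = 0 := by
  rw [kp_rj, ← AddMonoidHom.map_trace, tr_conj b.cc, map_zero]

theorem kp_psi : Ψ (b.c⁻¹ * k.φ) * sd (ds e.δ) (b.c⁻¹ * k.φ) = 1 := by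
  rw [c_inv, k.psi, sd_zero k.nu0]; simp

theorem kp_hc (r1 : RC1) {c' : ℕ} (h : 0 < c') : k.φ ^ 2 ∈ Hc b.j c' := by
  have a := (r1 _ _ b.iq c' h).2.2.2.2.1 _ (c_out b) _ (kp_mem k)
  rwa [c_inv, ← kp_eq k, mul_assoc, ← kp_eq k, ← sq] at a

theorem rc_sq : (e.r b.c).map (cj j) * (e.r b.c).map (cj j) = 1 := by
  rw [← rj_apply, ← map_mul, c_sq, map_one]

/-- **Kolyvagin primes** -/
theorem kl (r1 : RC1) (r2 : RC2) (h : b.Chr j c Ψ) :
    Kl (j + 1) b.Γ (b.aa j Ψ) k.l k.P k.φ k.τ where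
  toKp := k.kp
  sq := aa_one (h.ker _ (kp_hc k r1 (Chr.pos h)))
    (by rw [sq, P004S.nu_mul]; exact CharTwo.add_self_eq_zero _)
    (by rw [sq, map_mul, kp_rj, rc_sq])
  ine i hi := aa_unr r2 h k.kp.ov k.out (k.kp.ur hi) hi

end

section
variable {M : Type} [AddCommGroup M] [Module (Rj j) M] {x : GQ → Fin 2 → M}

theorem ac_sub_one {R : Type} [CommRing R] [Module R M] (a : M2 R) (m : Fin 2 → M) :
    ac (a - 1) m = ac a m - m := by
  funext i
  simp [ac, sub_smul, one_apply, Finset.sum_sub_distrib]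

theorem tq_of {R : Type} [CommRing R] [Module R M] {D : Subgroup GQ} {a : GQ → M2 R}
    {m : Fin 2 → M} (h : ∀ g ∈ D, x g = ac (a g - 1) m) (Z : Submodule R M) : Tq D a x Z :=
  ⟨m, fun g hg i => by rw [h g hg, ac_sub_one, sub_self]; exact Z.zero_mem⟩

/-- the singular coordinates at a Kolyvagin prime -/
def sk (w : ℕ → GQ → ℕ) (k : b.Kp j c Ψ) (x : GQ → Fin 2 → M) : Fin 2 → M :=
  (w k.l k.τ : Rj j) • rot (ac ((e.r b.c).map (cj j)) (x k.τ))

theorem sc_eq (w : ℕ → GQ → ℕ) (k : b.Kp j c Ψ) :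
    sc w b.c (rj e j) (fun g => Ψ g * sd (ds e.δ) g) x k.l k.φ k.τ = sk w k x := by
  simp only [sc, sk, kp_psi, kp_rj, mul_one]

/-- the local conditions of a Selmer cocycle; `η` kills the local cohomology at the primes without
condition -/
theorem lo_sel (r1 : RC1) (r2 : RC2) (h : b.Chr j c Ψ) {T : Finset ℕ} {ε : GQ → Fin 2 → Rj j}
    {t : M} {m : e.σ → Fin 2 → M} (X : b.Sel T (b.aa j Ψ) ε x t m) {Z : Submodule (Rj j) M}
    (ht : t ∈ Z) (η : Rj j) {p : ℕ} (hv : p ≠ 2 → p ∉ e.σ → ∀ P, Ov p P → ∃ u ∈ b.Γ,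
      ∃ μ, ∀ g ∈ b.Γ ⊓ dec (u • P), η • x g = ac (b.aa j Ψ g - 1) μ) :
    Lo b.Γ b.c (b.aa j Ψ) (η • x) x Z Z p := by
  have G := gd r1 r2 h (Finset.Subset.refl _) fun _ => T_prime
  by_cases h2 : p = 2
  · have q : Tq (b.Γ ⊓ dec (e.P 2)) (b.aa j Ψ) x Z := ⟨0, fun g hg i => by
      rw [ac_zero, sub_zero, Pi.zero_apply, sub_zero, X.sv g hg.2 i]; exact Z.smul_mem _ ht⟩
    subst h2
    exact Lo.str G (c_out b) (e.ov 2 e.two) (q.smul η) q
  by_cases hσ : p ∈ e.σ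
  · have q := tq_of (D := b.Γ ⊓ dec (e.P p)) (fun g hg => X.sp ⟨p, hσ⟩ g hg.2) Z
    exact Lo.str G (c_out b) (e.ov p (List.mem_of_mem_filter
      (List.mem_toFinset.1 (Finset.mem_filter.1 hσ).1))) (q.smul η) q
  · intro P ho
    obtain ⟨u, hu, μ, k⟩ := hv h2 hσ P ho
    exact ⟨u, hu, .inl (tq_of (x := η • x) k Z)⟩

variable {ι : Type} [Fintype ι] {w : ℕ → GQ → ℕ}

/-- **isotropy at finite level**, for all bilinear maps -/
theorem lev_eta (r1 : RC1) (r2 : RC2) (H : Rw (j + 1) w) (h : b.Chr j c Ψ) (k : ι → b.Kp j c Ψ)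
    (inj : Function.Injective fun i => (k i).l) {T : Finset ℕ}
    (hT : ∀ p, p ∈ T ↔ p ∈ b.T c ∨ ∃ i, (k i).l = p) {ε : GQ → Fin 2 → Rj j}
    {t : M} {m : e.σ → Fin 2 → M} (X : b.Sel T (b.aa j Ψ) ε x t m) {Z : Submodule (Rj j) M}
    (ht : t ∈ Z) (η : Rj j) (hv : ∀ p ∈ b.T c, p ≠ 2 → p ∉ e.σ → ∀ P, Ov p P → ∃ u ∈ b.Γ,
      ∃ μ, ∀ g ∈ b.Γ ⊓ dec (u • P), η • x g = ac (b.aa j Ψ g - 1) μ) {f s : ι × Fin 2 → M}
    (hf : ∀ i n, f (i, n) - x ((k i).φ ^ 2) n ∈ Z) (hs : ∀ i n, s (i, n) - sk w (k i) x n ∈ Z)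
    {A : Type} [AddCommGroup A] [Module (Rj j) A] (β : M →ₗ[Rj j] M →ₗ[Rj j] A)
    (hZ : ∀ z ∈ Z, β z = 0) (hZ' : ∀ z ∈ Z, ∀ u, β u z = 0) :
    η • ∑ i, (β (f i) (s i) + β (s i) (f i)) = 0 :=
  iso_eta H (gd r1 r2 h (fun p m => (hT p).2 (.inl m)) fun p m => ((hT p).1 m).elim T_prime
      fun ⟨i, e⟩ => e ▸ (k i).kp.ov.1) (sdu r1 h j.le_succ) X.toCc inj (fun i => kl (k i) r1 r2 h)
    (fun i => kp_tr (k i)) η (fun p m n => lo_sel r1 r2 h X ht η
      (hv p (((hT p).1 m).resolve_right fun ⟨i, e⟩ => n i e))) hf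
    (fun i n => by rw [sc_eq]; exact hs i n) β hZ hZ'

/-- **isotropy at finite level**, as a matrix identity -/
theorem lev_mat (r1 : RC1) (r2 : RC2) (H : Rw (j + 1) w) (h : b.Chr j c Ψ) (k : ι → b.Kp j c Ψ)
    (inj : Function.Injective fun i => (k i).l) {T : Finset ℕ}
    (hT : ∀ p, p ∈ T ↔ p ∈ b.T c ∨ ∃ i, (k i).l = p) {ε : GQ → Fin 2 → Rj j}
    {t : M} {m : e.σ → Fin 2 → M} (X : b.Sel T (b.aa j Ψ) ε x t m) {Z : Submodule (Rj j) M}
    (ht : t ∈ Z) (η : Rj j) (hv : ∀ p ∈ b.T c, p ≠ 2 → p ∉ e.σ → ∀ P, Ov p P → ∃ u ∈ b.Γ,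
      ∃ μ, ∀ g ∈ b.Γ ⊓ dec (u • P), η • x g = ac (b.aa j Ψ g - 1) μ)
    {I κ : Type} [Fintype I] [Fintype κ] (B : Matrix κ I (Rj j)) (π : (I → Rj j) →ₗ[Rj j] M)
    (h1 : Function.Surjective π) (h2 : ∀ v, π v ∈ Z → v ∈ Submodule.span (Rj j) (Set.range B))
    {f s : ι × Fin 2 → I → Rj j} (hf : ∀ i n, π (f (i, n)) - x ((k i).φ ^ 2) n ∈ Z)
    (hs : ∀ i n, π (s (i, n)) - sk w (k i) x n ∈ Z) : ∃ U U' : Matrix κ I (Rj j),
      η • ∑ i, (vecMulVec (f i) (s i) + vecMulVec (s i) (f i)) = Bᵀ * U + U'ᵀ * B :=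
  iso_mat H (gd r1 r2 h (fun p m => (hT p).2 (.inl m)) fun p m => ((hT p).1 m).elim T_prime
      fun ⟨i, e⟩ => e ▸ (k i).kp.ov.1) (sdu r1 h j.le_succ) X.toCc inj (fun i => kl (k i) r1 r2 h)
    (fun i => kp_tr (k i)) η (fun p m n => lo_sel r1 r2 h X ht η
      (hv p (((hT p).1 m).resolve_right fun ⟨i, e⟩ => n i e))) B π h1 h2 hf
    fun i n => by rw [sc_eq]; exact hs i n

end

end Vale.Agent.P004F.Ra
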