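import Vale.Agent.P004F.Rec.St
import Vale.Agent.P004F.Defs
import Vale.Agent.P004F.Alg.Lat
import Vale.Agent.P004S.Lt

/-!
# P004F, block RA: reciprocity for a conjugate self dual action (adapter)
-/

set_option linter.all false

noncomputable section

namespace Vale.Agent.P004F.Ra

open NumberField
open Vale.Agent.P022 Vale.Agent.P022K Vale.Agent.P022K.G2
open Vale.Agent.P022D.W (dec inP_le_dec conj_inP phi_mem)
open Vale.Agent.P022.H443 (inP)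
open Vale.Agent.P022E.GW (Ov Fb Gn)
open Vale.Agent.P027M.S (Inert)
open Pr (ac ac_add ac_smul ac_zero Gd)
open Rc (Cy Co Tv Ur Kp Tr REC)
open scoped Pointwise

variable {R M M' A : Type} [CommRing R] [AddCommGroup M] [Module R M] [AddCommGroup M']
  [Module R M'] [AddCommGroup A] [Module R A]

/-- the alternating pairing attached to a bilinear map -/
def wp (β : M →ₗ[R] M' →ₗ[R] A) (u : Fin 2 → M) (v : Fin 2 → M') : A :=
  β (u 0) (v 1) - β (u 1) (v 0)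

theorem ac_mul (m n : M2 R) (x : Fin 2 → M) : ac (m * n) x = ac m (ac n x) := by
  funext i
  simp only [ac, Matrix.mul_apply, Fin.sum_univ_two]
  module

theorem ac_one (x : Fin 2 → M) : ac (1 : M2 R) x = x := by
  funext i
  simp [ac, Matrix.one_apply]

theorem ac_sm (r : R) (m : M2 R) (x : Fin 2 → M) : ac (r • m) x = r • ac m x := by
  funext i
  simp only [ac, Matrix.smul_apply, Fin.sum_univ_two, Pi.smul_apply, smul_eq_mul]
  module

theorem ac_neg (m : M2 R) (x : Fin 2 → M) : ac m (-x) = -ac m x := by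
  funext i
  simp only [ac, Fin.sum_univ_two, Pi.neg_apply]
  module

theorem ac_map (f : M →ₗ[R] M') (m : M2 R) (x : Fin 2 → M) : ac m (f ∘ x) = f ∘ ac m x := by
  funext i
  simp [ac]

section
variable (β : M →ₗ[R] M' →ₗ[R] A) (m : M2 R) (u u' : Fin 2 → M) (v v' : Fin 2 → M')

theorem wp_ac : wp β (ac m u) (ac m v) = m.det • wp β u v := by
  simp only [wp, ac, Fin.sum_univ_two, Matrix.det_fin_two, map_add, map_smul, LinearMap.add_apply,
    LinearMap.smul_apply]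
  module

theorem wp_tr (h : m.trace = 0) : wp β u (ac m v) = -wp β (ac m u) v := by
  have e : m 1 1 = -m 0 0 := by rw [Matrix.trace_fin_two] at h; linear_combination h
  simp only [wp, ac, Fin.sum_univ_two, map_add, map_smul, LinearMap.add_apply,
    LinearMap.smul_apply, e]
  module

theorem wp_addl : wp β (u + u') v = wp β u v + wp β u' v := by
  simp only [wp, Pi.add_apply, map_add, LinearMap.add_apply]; abel

theorem wp_addr : wp β u (v + v') = wp β u v + wp β u v' := by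
  simp only [wp, Pi.add_apply, map_add]; abel

theorem wp_smull (r : R) : wp β (r • u) v = r • wp β u v := by
  simp only [wp, Pi.smul_apply, map_smul, LinearMap.smul_apply, smul_sub]

theorem wp_smulr (r : R) : wp β u (r • v) = r • wp β u v := by
  simp only [wp, Pi.smul_apply, map_smul, smul_sub]

theorem wp_negr : wp β u (-v) = -wp β u v := by
  simp only [wp, Pi.neg_apply, map_neg]; abel

end

/-- the action as an additive map -/
def aH (m : M2 R) : (Fin 2 → M) →+ (Fin 2 → M) := AddMonoidHom.mk' (ac m) (ac_add m)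

theorem aH_one {m : M2 R} (h : m = 1) (z : Fin 2 → M) : aH m z = z := h ▸ ac_one z

/-- the pairing twisted by a matrix -/
def wH (β : M →ₗ[R] M' →ₗ[R] A) (J : M2 R) : (Fin 2 → M) →+ (Fin 2 → M') →+ A :=
  AddMonoidHom.mk' (fun u => AddMonoidHom.mk' (fun v => wp β u (ac J v)) fun v v' => by
    rw [ac_add, wp_addr]) fun u u' => AddMonoidHom.ext fun v => wp_addl ..

theorem two_smul_zero {N : ℕ} (h : (2 : R) ^ N = 0) (x : M) : 2 ^ N • x = 0 := by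
  rw [← Nat.cast_smul_eq_nsmul R, Nat.cast_pow, Nat.cast_ofNat, h, zero_smul]

/-- Frobenius acts by `l` on tame inertia -/
theorem tame {B : Type} [AddCommGroup B] {N l : ℕ} {P : Ideal (𝓞 Qb)} (ho : Ov l P) (hl : l ≠ 2)
    (hB : ∀ x : B, 2 ^ N • x = 0) {f : GQ → B} {W : Subgroup GQ} (hW : IsOpen (W : Set GQ))
    (h0 : ∀ w ∈ W, Inert P w → f w = 0)
    (ad : ∀ g h, Inert P g → Inert P h → f (g * h) = f g + f h) {φ i : GQ} (hφ : Fb l P φ)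
    (hi : i ∈ inP P) : f (φ * i * φ⁻¹) = l • f i := by
  obtain ⟨V, hV, le⟩ := ex_lv' hW
  haveI := hV.nrm
  obtain ⟨k, _, _, χ, -, -, h1⟩ := CH.Loc.chi_data V hV.opn ho
  refine add_cyc (l := l) (V := V) (fun x hx => ?_) ad (fun w m => h0 w (le m)) hi
    (conj_inP (phi_mem ho.1 ho.2.1 hφ) hi) ?_
  · rw [← addOrderOf_dvd_iff_nsmul_eq_zero] at hx
    exact AddMonoid.addOrderOf_eq_one_iff.1 (Nat.eq_one_of_dvd_coprimes
      ((Nat.coprime_two_right.2 (ho.1.odd_of_ne_two hl)).pow_right N) hx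
      (addOrderOf_dvd_iff_nsmul_eq_zero.2 (hB x)))
  · simpa [mul_assoc] using (h1 φ hφ i hi).conj (i ^ l)⁻¹

theorem neg_of {B : Type} [AddCommGroup B] {N l : ℕ} (hB : ∀ x : B, 2 ^ N • x = 0)
    (h : 2 ^ N ∣ l + 1) (x : B) : l • x = -x := by
  obtain ⟨k, hk⟩ := h
  rw [eq_neg_iff_add_eq_zero, ← succ_nsmul, hk, mul_nsmul', hB]

variable {N : ℕ} {Γ : Subgroup GQ} {T T' : Finset ℕ} {a r : GQ → M2 R} {ψ : GQ → R} {c : GQ}
  {x : GQ → Fin 2 → M} {y : GQ → Fin 2 → M'}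

theorem nrm (G : Gd Γ T a) : Γ.Normal := Subgroup.normal_of_index_eq_two G.idx

theorem mul_out (G : Gd Γ T a) {g h : GQ} (hg : g ∉ Γ) (hh : h ∉ Γ) : g * h ∈ Γ :=
  (Subgroup.mul_mem_iff_of_index_two G.idx).2 (by simp [hg, hh])

theorem x_one (G : Gd Γ T a) (h : Cc Γ T' a x) : x 1 = 0 := by
  have := h.coc 1 Γ.one_mem 1 Γ.one_mem
  rw [mul_one, G.one, ac_one] at this
  simpa using this

theorem a_conj (G : Gd Γ T a) {g h : GQ} (hg : g ∈ Γ) (hh : h ∈ Γ) (e : a h = 1) :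
    a (g * h * g⁻¹) = 1 := by
  rw [G.mul _ (mul_mem hg hh) _ (inv_mem hg), G.mul _ hg _ hh, e, mul_one,
    ← G.mul _ hg _ (inv_mem hg), mul_inv_cancel, G.one]

theorem x_conj (G : Gd Γ T a) (X : Cc Γ T' a x) {g h : GQ} (hg : g ∈ Γ) (hh : h ∈ Γ)
    (e : a h = 1) : x (g * h * g⁻¹) = ac (a g) (x h) := by
  have := X.coc _ hg _ (inv_mem hg)
  rw [mul_inv_cancel, x_one G X] at this
  rw [mul_assoc, X.coc _ hg _ (mul_mem hh (inv_mem hg)), X.coc _ hh _ (inv_mem hg), e, ac_one,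
    ac_add, add_left_comm, ← this, add_zero]

theorem Cc.map (X : Cc Γ T a x) (f : M →ₗ[R] M') : Cc Γ T a fun g => f ∘ x g where
  coc g hg h hh := by rw [X.coc g hg h hh, ac_map]; funext i; simp
  out g hg := by rw [X.out g hg]; funext i; simp
  lc := X.lc.imp fun W h => ⟨h.1, fun w m => by rw [h.2 w m]; funext i; simp⟩
  unr g hg := by rw [X.unr g hg]; funext i; simp

theorem Cc.smul (X : Cc Γ T a x) (η : R) : Cc Γ T a (η • x) :=
  (Cc.map X (η • LinearMap.id) :)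

/-- a Kolyvagin prime for the action `a` -/
structure Kl (N : ℕ) (Γ : Subgroup GQ) (a : GQ → M2 R) (l : ℕ) (P : Ideal (𝓞 Qb)) (φ τ : GQ) :
    Prop extends Kp N Γ l P φ τ where
  sq : a (φ ^ 2) = 1
  ine : ∀ i ∈ inP P, a i = 1

section
variable {l : ℕ} {P : Ideal (𝓞 Qb)} {φ τ : GQ}

theorem sq_mem (G : Gd Γ T a) (g : GQ) : g ^ 2 ∈ Γ := Subgroup.sq_mem_of_index_two G.idx g

theorem Kl.add (K : Kl N Γ a l P φ τ) (X : Cc Γ T' a x) (g h : GQ) (hg : Inert P g)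
    (hh : Inert P h) : x (g * h) = x g + x h := by
  rw [X.coc g (K.ur hg) h (K.ur hh), K.ine g hg, ac_one]

theorem Kl.frob (K : Kl N Γ a l P φ τ) (h2 : (2 : R) ^ N = 0) (X : Cc Γ T' a x) {i : GQ}
    (hi : i ∈ inP P) : x (φ * i * φ⁻¹) = -x i := by
  obtain ⟨W, hW, e⟩ := X.lc
  rw [tame K.ov K.ne (two_smul_zero h2) hW (fun w m _ => e w m) (K.add X) K.fb hi,
    neg_of (two_smul_zero h2) K.dv]

theorem Kl.cj (K : Kl N Γ a l P φ τ) {i : GQ} (hi : i ∈ inP P) : φ⁻¹ * i * φ ∈ inP P := by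
  simpa using conj_inP (inv_mem (phi_mem K.ov.1 K.ov.2.1 K.fb)) hi

theorem Kl.frob' (K : Kl N Γ a l P φ τ) (h2 : (2 : R) ^ N = 0) (X : Cc Γ T' a x) {i : GQ}
    (hi : i ∈ inP P) : x (φ⁻¹ * i * φ) = -x i := by
  have := K.frob h2 X (K.cj hi)
  rw [show φ * (φ⁻¹ * i * φ) * φ⁻¹ = i by group] at this
  rw [this, neg_neg]

theorem Kl.pw (K : Kl N Γ a l P φ τ) (G : Gd Γ T a) (X : Cc Γ T' a x) (m : ℕ) :
    a ((φ ^ 2) ^ m) = 1 ∧ x ((φ ^ 2) ^ m) = m • x (φ ^ 2) := by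
  induction m with
  | zero => simp [G.one, x_one G X]
  | succ m ih =>
    rw [pow_succ, G.mul _ (pow_mem (sq_mem G φ) m) _ (sq_mem G φ),
      X.coc _ (pow_mem (sq_mem G φ) m) _ (sq_mem G φ), ih.1, ih.2, K.sq, ac_one, mul_one, succ_nsmul]
    exact ⟨rfl, rfl⟩

/-- **the local values** are determined by the values at `φ ^ 2` and `τ` -/
theorem loc (G : Gd Γ T a) (K : Kl N Γ a l P φ τ) (h2 : (2 : R) ^ N = 0) (X : Cc Γ T' a x)
    {g : GQ} (hg : g ∈ Γ ⊓ dec P) : a g = 1 ∧ ∃ m n : ℕ, x g = m • x (φ ^ 2) + n • x τ := by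
  obtain ⟨W, hW, e⟩ := X.lc
  obtain ⟨V, hV, e'⟩ := G.lc
  obtain ⟨j, i, hi, k⟩ := (P004S.lt l P K.ov).2 φ g K.fb hg.2 (W ⊓ V ⊓ Γ)
    ((hW.inter hV).inter G.opn)
  obtain ⟨n, hn⟩ := (P004S.lt l P K.ov).1 τ N i K.ne K.gn hi W hW
  have i1 : i ∈ Γ := K.ur hi
  have m1 : φ ^ j * i ∈ Γ := by simpa using Γ.mul_mem hg.1 (Γ.inv_mem k.2)
  have m2 : φ ^ j ∈ Γ := by simpa using mul_mem m1 (inv_mem i1)
  obtain ⟨m, rfl | rfl⟩ := j.even_or_odd'
  · have e1 : g = φ ^ (2 * m) * i * ((φ ^ (2 * m) * i)⁻¹ * g) := by group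
    have p := K.pw G X m
    rw [← pow_mul] at p
    refine ⟨?_, m, n, ?_⟩
    · rw [e1, G.mul _ m1 _ k.2, e' _ k.2 k.1.2, G.mul _ m2 _ i1, p.1, K.ine i hi, mul_one, mul_one]
    · rw [e1, X.coc _ m1 _ k.2, e _ k.1.1, ac_zero, add_zero, X.coc _ m2 _ i1, p.1, p.2, ac_one,
        hn _ x (two_smul_zero h2) (fun g _ m => e g m) (K.add X)]
  · rw [pow_succ, pow_mul, Subgroup.mul_mem_cancel_left _ (pow_mem (sq_mem G φ) m)] at m2
    exact absurd m2 K.out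

theorem loc0 (G : Gd Γ T a) (K : Kl N Γ a l P φ τ) (h2 : (2 : R) ^ N = 0) (X : Cc Γ T' a x)
    (e1 : x (φ ^ 2) = 0) (e2 : x τ = 0) {g : GQ} (hg : g ∈ Γ ⊓ dec P) : x g = 0 := by
  obtain ⟨-, m, n, e⟩ := loc G K h2 X hg
  rw [e, e1, e2, smul_zero, smul_zero, add_zero]

/-- the values on inertia are multiples of the value at `τ` -/
theorem loc_in (K : Kl N Γ a l P φ τ) (h2 : (2 : R) ^ N = 0) (X : Cc Γ T' a x)
    {i : GQ} (hi : i ∈ inP P) : ∃ n : ℕ, x i = n • x τ := by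
  obtain ⟨W, hW, e⟩ := X.lc
  obtain ⟨n, hn⟩ := (P004S.lt l P K.ov).1 τ N i K.ne K.gn hi W hW
  exact ⟨n, hn _ x (two_smul_zero h2) (fun g _ m => e g m) (K.add X)⟩

end

/-- `a = ψ • r` on `Γ`, the determinant of `r` is cyclotomic, `ψ` is inverted by `c` -/
structure Sd (N : ℕ) (Γ : Subgroup GQ) (c : GQ) (r : GQ → M2 R) (ψ : GQ → R) (a : GQ → M2 R) :
    Prop where
  two : (2 : R) ^ N = 0
  out : c ∉ Γ
  eq : ∀ g ∈ Γ, a g = ψ g • r g
  mul : ∀ g h, r (g * h) = r g * r h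
  det : ∀ g ∈ Γ, ∀ k, Cy N g k → (r g).det = k
  cj : ∀ g ∈ Γ, ψ (c⁻¹ * g * c) * ψ g = 1

/-- `x` is a coboundary on `D` modulo `S` -/
def Tq (D : Subgroup GQ) (a : GQ → M2 R) (x : GQ → Fin 2 → M) (S : Submodule R M) : Prop :=
  ∃ μ : Fin 2 → M, ∀ g ∈ D, ∀ i, x g i - (ac (a g) μ - μ) i ∈ S

theorem Tq.mono {D D' : Subgroup GQ} {S S' : Submodule R M} (h : Tq D a x S) (e : D' ≤ D)
    (e' : S ≤ S') : Tq D' a x S' := h.imp fun _ h g hg i => e' (h g (e hg) i)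

theorem Tq.smul {D : Subgroup GQ} {S : Submodule R M} (h : Tq D a x S) (η : R) :
    Tq D a (η • x) S := by
  obtain ⟨μ, h⟩ := h
  refine ⟨η • μ, fun g hg i => ?_⟩
  have := S.smul_mem η (h g hg i)
  simpa [ac_smul, smul_sub] using this

theorem Tq.map {D : Subgroup GQ} {S : Submodule R M} {S' : Submodule R M'} (h : Tq D a x S)
    (f : M →ₗ[R] M') (e : ∀ z ∈ S, f z ∈ S') : Tq D a (fun g => f ∘ x g) S' := by
  obtain ⟨μ, h⟩ := h
  refine ⟨f ∘ μ, fun g hg i => ?_⟩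
  have := e _ (h g hg i)
  simpa [ac_map] using this

/-- the local condition at `p`: one of the two factors is trivial at each place -/
def Lo (Γ : Subgroup GQ) (c : GQ) (a : GQ → M2 R) (x : GQ → Fin 2 → M) (y : GQ → Fin 2 → M')
    (Z : Submodule R M) (Z' : Submodule R M') (p : ℕ) : Prop :=
  ∀ Q, Ov p Q → ∃ g ∈ Γ, Tq (Γ ⊓ dec (g • Q)) a x Z ∨ Tq (Γ ⊓ dec (c⁻¹ • g • Q)) a y Z'

section
variable {Z : Submodule R M} {Z' : Submodule R M'} {p : ℕ} {Q : Ideal (𝓞 Qb)}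

/-- strict at `Q`, no condition at the conjugate place -/
theorem Lo.str (G : Gd Γ T a) (hc : c ∉ Γ) (ho : Ov p Q) (h : Tq (Γ ⊓ dec Q) a x Z)
    (h' : Tq (Γ ⊓ dec Q) a y Z') : Lo Γ c a x y Z Z' p := fun Q' ho' => by
  obtain ⟨g, rfl⟩ := GW.Pl.ov_trans ho' ho
  by_cases m : g ∈ Γ
  · exact ⟨g, m, .inl h⟩
  · exact ⟨c * g, mul_out G hc m, .inr (by rwa [mul_smul, inv_smul_smul])⟩

/-- the first factor is trivial at both places -/
theorem Lo.rel (G : Gd Γ T a) (hc : c ∉ Γ) (ho : Ov p Q) (h : Tq (Γ ⊓ dec Q) a x Z)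
    (h' : Tq (Γ ⊓ dec (c • Q)) a x Z) : Lo Γ c a x y Z Z' p := fun Q' ho' => by
  obtain ⟨g, rfl⟩ := GW.Pl.ov_trans ho' ho
  by_cases m : g ∈ Γ
  · exact ⟨g, m, .inl h⟩
  · exact ⟨c * g, mul_out G hc m, .inl (by rwa [mul_smul])⟩

theorem Lo.all (h : ∀ Q, Ov p Q → Tq (Γ ⊓ dec Q) a x Z) : Lo Γ c a x y Z Z' p := fun Q ho =>
  ⟨1, Γ.one_mem, .inl (h _ (GW.ov_smul ho 1))⟩

end

theorem dec_cj {P : Ideal (𝓞 Qb)} {g h : GQ} (e : h ∈ dec P) : g⁻¹ * h * g ∈ dec (g⁻¹ • P) := by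
  rw [GW.Pl.dec_iff] at e ⊢
  rw [mul_smul, mul_smul, smul_inv_smul, e]

theorem cj_mem (G : Gd Γ T a) {g : GQ} (hg : g ∈ Γ) (c : GQ) : c⁻¹ * g * c ∈ Γ :=
  (nrm G).conj_mem' g hg c

theorem co (G : Gd Γ T a) (X : Cc Γ T' a x) (c : GQ) :
    Co Γ (fun g => aH (a (c⁻¹ * g * c))) fun g => x (c⁻¹ * g * c) := by
  have e : ∀ g h : GQ, c⁻¹ * (g * h) * c = c⁻¹ * g * c * (c⁻¹ * h * c) := fun g h => by group
  refine ⟨fun g hg h hh z => ?_, fun g hg h hh => ?_, ?_⟩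
  · rw [e, G.mul _ (cj_mem G hg c) _ (cj_mem G hh c)]
    exact ac_mul ..
  · rw [e]
    exact X.coc _ (cj_mem G hg c) _ (cj_mem G hh c)
  · obtain ⟨W, hW, k⟩ := X.lc
    obtain ⟨V, hV, k'⟩ := G.lc
    obtain ⟨U, hU, le⟩ := ex_lv' (H := W ⊓ V) (hW.inter hV)
    refine ⟨U, hU.opn, fun w hw m => ?_⟩
    have := le (hU.nrm.conj_mem' w m c)
    exact ⟨aH_one (k' _ (cj_mem G hw c) this.2), k _ this.1⟩

theorem ur (G : Gd Γ T a) (X : Cc Γ T a x) (c : GQ) {p : ℕ} {Q : Ideal (𝓞 Qb)} (h : Ov p Q)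
    (hp : p ∉ T) : Ur (Γ ⊓ inP Q) (fun g => aH (a (c⁻¹ * g * c))) fun g => x (c⁻¹ * g * c) :=
  fun g hg => by
    have m : c⁻¹ * g * c ∈ In (T : Set ℕ) :=
      ⟨p, hp, c⁻¹ • Q, GW.ov_smul h _, by simpa using GW.Pl.inert_conj hg.2 c⁻¹⟩
    exact ⟨aH_one (G.unr _ (cj_mem G hg.1 c) m), X.unr _ m⟩

theorem Kl.tr {l : ℕ} {P : Ideal (𝓞 Qb)} {φ τ : GQ} (K : Kl N Γ a l P φ τ) (G : Gd Γ T a)
    (hc : c ∉ Γ) : Tr (fun g => (aH (a (c⁻¹ * g * c)) : (Fin 2 → M) →+ _)) P φ := by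
  have m : c⁻¹ * φ ∈ Γ := mul_out G (by simpa using hc) K.out
  refine ⟨aH_one ?_, fun i hi => aH_one ?_⟩
  · rw [show c⁻¹ * φ ^ 2 * c = c⁻¹ * φ * φ ^ 2 * (c⁻¹ * φ)⁻¹ by group,
      a_conj G m (sq_mem G φ) K.sq]
  · rw [show c⁻¹ * i * c = c⁻¹ * φ * (φ⁻¹ * i * φ) * (c⁻¹ * φ)⁻¹ by group,
      a_conj G m (K.ur (K.cj hi)) (K.ine _ (K.cj hi))]

/-- the statement of `REC` for a given weight function -/
def Rw (N : ℕ) (w : ℕ → GQ → ℕ) : Prop :=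
  ∀ (Γ : Subgroup GQ) (A M M' : Type) [AddCommGroup A] [AddCommGroup M] [AddCommGroup M']
    (B : M →+ M' →+ A) (ρ : GQ → M →+ M) (σ : GQ → M' →+ M') (a : GQ → M) (b : GQ → M')
    (L : Finset ℕ) (P : ℕ → Ideal (𝓞 Qb)) (φ τ : ℕ → GQ),
    IsOpen (Γ : Set GQ) → Γ.index = 2 → (∀ v, Γ ⊓ St (ip v) = ⊥) → (∀ x : A, 2 ^ N • x = 0) →
    Co Γ ρ a → Co Γ σ b →
    (∀ g ∈ Γ, ∀ k, Cy N g k → ∀ x y, B (ρ g x) (σ g y) = k • B x y) →
    (∀ l ∈ L, Kp N Γ l (P l) (φ l) (τ l) ∧ Tr ρ (P l) (φ l) ∧ Tr σ (P l) (φ l)) →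
    (∀ p Q, Ov p Q → p ∉ L → ∃ g ∈ Γ, Tv (Γ ⊓ dec (g • Q)) ρ a ∨ Tv (Γ ⊓ dec (g • Q)) σ b ∨
      (p ≠ 2 ∧ Ur (Γ ⊓ inP (g • Q)) ρ a ∧ Ur (Γ ⊓ inP (g • Q)) σ b)) →
    ∑ l ∈ L, w l (τ l) • (B (a (φ l ^ 2)) (b (τ l)) - B (a (τ l)) (b (φ l ^ 2))) = 0

theorem ra0 {w : ℕ → GQ → ℕ} (H : Rw N w) (G : Gd Γ T a) (S : Sd N Γ c r ψ a)
    (X : Cc Γ T a x) (Y : Cc Γ T a y) (β : M →ₗ[R] M' →ₗ[R] A) (L : Finset ℕ)
    (P : ℕ → Ideal (𝓞 Qb)) (φ τ : ℕ → GQ) (K : ∀ l ∈ L, Kl N Γ a l (P l) (φ l) (τ l))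
    (lo : ∀ p ∈ T, p ∉ L → Lo Γ c a x y ⊥ ⊥ p) :
    ∑ l ∈ L, ((w l (τ l) : R) * ψ (c⁻¹ * φ l)) • (wp β (x (φ l ^ 2)) (ac (r (φ l)) (y (τ l))) +
      wp β (x (τ l)) (ac (r (φ l)) (y (φ l ^ 2)))) = 0 := by
  have c1 := co G X 1
  simp only [inv_one, one_mul, mul_one] at c1
  have := H Γ A _ _ (wH β (r c)) _ _ _ _ L P φ τ G.opn G.idx G.cx (two_smul_zero S.two) c1
    (co G Y c) (fun g hg k hk u v => ?_) (fun l hl => ⟨(K l hl).toKp, ⟨aH_one (K l hl).sq,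
      fun i hi => aH_one ((K l hl).ine i hi)⟩, (K l hl).tr G S.out⟩) fun p Q ho hp => ?_
  · rw [← neg_eq_zero, ← Finset.sum_neg_distrib] at this
    refine (Finset.sum_congr rfl fun l hl => ?_).trans this
    have k := K l hl
    have m : c⁻¹ * φ l ∈ Γ := mul_out G (by simpa using S.out) k.out
    have e : ∀ v : Fin 2 → M', ac (r c) (ac (a (c⁻¹ * φ l)) v) = ψ (c⁻¹ * φ l) • ac (r (φ l)) v :=
      fun v => by rw [S.eq _ m, ac_sm, ac_smul, ← ac_mul, ← S.mul, mul_inv_cancel_left]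
    have e1 : y (c⁻¹ * φ l ^ 2 * c) = ac (a (c⁻¹ * φ l)) (y (φ l ^ 2)) := by
      rw [← x_conj G Y m (sq_mem G _) k.sq]; congr 1; group
    have e2 : y (c⁻¹ * τ l * c) = -ac (a (c⁻¹ * φ l)) (y (τ l)) := by
      rw [← ac_neg, ← k.frob' S.two Y k.gn.1,
        ← x_conj G Y m (k.ur (k.cj k.gn.1)) (k.ine _ (k.cj k.gn.1))]
      congr 1; group
    change _ = -(w l (τ l) • (wp β _ (ac _ (y _)) - wp β _ (ac _ (y _))))
    rw [e1, e2, ac_neg, e, e, wp_negr, wp_smulr, wp_smulr, ← Nat.cast_smul_eq_nsmul R]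
    module
  · change wp β (ac (a g) u) (ac (r c) (ac (a _) v)) = k • wp β u (ac (r c) v)
    rw [S.eq g hg, S.eq _ (cj_mem G hg c), ac_sm, ac_sm, ac_smul, wp_smull, wp_smulr, ← ac_mul,
      ← S.mul, show c * (c⁻¹ * g * c) = g * c by group, S.mul, ac_mul, wp_ac, S.det g hg k hk,
      ← mul_smul, mul_comm, S.cj g hg, one_smul, Nat.cast_smul_eq_nsmul]
  · by_cases hT : p ∈ T
    · obtain ⟨g, hg, ⟨μ, h⟩ | ⟨μ, h⟩⟩ := lo p hT hp Q ho
      · exact ⟨g, hg, .inl ⟨μ, fun k hk => funext fun i => sub_eq_zero.1 (h k hk i)⟩⟩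
      · exact ⟨g, hg, .inr (.inl ⟨μ, fun k hk => funext fun i =>
          sub_eq_zero.1 (h _ ⟨cj_mem G hk.1 c, dec_cj hk.2⟩ i)⟩)⟩
    · have u1 := ur G X 1 (GW.ov_smul ho 1) hT
      simp only [inv_one, one_mul, mul_one] at u1
      exact ⟨1, Γ.one_mem, .inr (.inr ⟨fun e => hT (e ▸ G.two), u1, ur G Y c (GW.ov_smul ho 1) hT⟩)⟩

theorem rw_of (h : REC) (N : ℕ) : ∃ w : ℕ → GQ → ℕ,
    (∀ l P τ, Ov l P → l ≠ 2 → Gn l P τ → Odd (w l τ)) ∧ Rw N w := h N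

/-- odd numbers are units -/
theorem unit_odd (h : (2 : R) ^ N = 0) {n : ℕ} (hn : Odd n) : IsUnit (n : R) := by
  obtain ⟨k, rfl⟩ := hn
  have : IsNilpotent (2 * k : R) := ⟨N, by rw [mul_pow, h, zero_mul]⟩
  simpa using this.isUnit_add_one

variable {ι : Type} [Fintype ι] {l : ι → ℕ} {P : ι → Ideal (𝓞 Qb)} {φ τ : ι → GQ}
  {w : ℕ → GQ → ℕ}

/-- **reciprocity** for two cocycles and a bilinear map which kills `Z` and `Z'` -/
theorem ra (H : Rw N w) (G : Gd Γ T a) (S : Sd N Γ c r ψ a) (X : Cc Γ T a x) (Y : Cc Γ T a y)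
    (β : M →ₗ[R] M' →ₗ[R] A) {Z : Submodule R M} {Z' : Submodule R M'}
    (hZ : ∀ z ∈ Z, β z = 0) (hZ' : ∀ z ∈ Z', ∀ u, β u z = 0) (hl : Function.Injective l)
    (K : ∀ i, Kl N Γ a (l i) (P i) (φ i) (τ i)) (tr : ∀ i, (r (φ i)).trace = 0)
    (lo : ∀ p ∈ T, (∀ i, l i ≠ p) → Lo Γ c a x y Z Z' p) :
    ∑ i, ((w (l i) (τ i) : R) * ψ (c⁻¹ * φ i)) • (wp β (x (φ i ^ 2)) (ac (r (φ i)) (y (τ i))) -
      wp β (ac (r (φ i)) (x (τ i))) (y (φ i ^ 2))) = 0 := by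
  classical
  let β' : (M ⧸ Z) →ₗ[R] (M' ⧸ Z') →ₗ[R] A :=
    (Z'.liftQ (Z.liftQ β hZ).flip fun z hz => Submodule.linearMap_qext _ (LinearMap.ext fun u =>
      hZ' z hz u)).flip
  have e : ∀ u v, wp β' (Z.mkQ ∘ u) (Z'.mkQ ∘ v) = wp β u v := fun u v => rfl
  have := ra0 H G S (Cc.map X Z.mkQ) (Cc.map Y Z'.mkQ) β' (Finset.univ.image l)
    (Function.extend l P fun _ => ⊥) (Function.extend l φ 1) (Function.extend l τ 1)
    (fun p hp => ?_) fun p hp n Q ho => ?_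
  · rw [Finset.sum_image fun i _ j _ h => hl h] at this
    simp only [hl.extend_apply, ac_map, e] at this
    refine (Finset.sum_congr rfl fun i _ => ?_).trans this
    rw [wp_tr β _ (x (τ i)) _ (tr i), sub_eq_add_neg]
  · obtain ⟨i, -, rfl⟩ := Finset.mem_image.1 hp
    simpa only [hl.extend_apply] using K i
  · obtain ⟨g, hg, h⟩ := lo p hp (fun i e => n (Finset.mem_image.2 ⟨i, Finset.mem_univ i, e⟩)) Q ho
    exact ⟨g, hg, h.imp (fun k => k.map _ fun z hz => (Submodule.Quotient.mk_eq_zero _).2 hz)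
      fun k => k.map _ fun z hz => (Submodule.Quotient.mk_eq_zero _).2 hz⟩

/-- the rotation -/
def rot (v : Fin 2 → M) : Fin 2 → M := ![-v 1, v 0]

/-- the singular coordinates -/
def sc (w : ℕ → GQ → ℕ) (c : GQ) (r : GQ → M2 R) (ψ : GQ → R) (x : GQ → Fin 2 → M) (l : ℕ)
    (φ τ : GQ) : Fin 2 → M := ((w l τ : R) * ψ (c⁻¹ * φ)) • rot (ac (r φ) (x τ))

/-- **isotropy** up to the factor `η` -/
theorem iso_eta (H : Rw N w) (G : Gd Γ T a) (S : Sd N Γ c r ψ a) (X : Cc Γ T a x)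
    {Z : Submodule R M} (hl : Function.Injective l)
    (K : ∀ i, Kl N Γ a (l i) (P i) (φ i) (τ i)) (tr : ∀ i, (r (φ i)).trace = 0) (η : R)
    (lo : ∀ p ∈ T, (∀ i, l i ≠ p) → Lo Γ c a (η • x) x Z Z p) {f s : ι × Fin 2 → M}
    (hf : ∀ i k, f (i, k) - x (φ i ^ 2) k ∈ Z)
    (hs : ∀ i k, s (i, k) - sc w c r ψ x (l i) (φ i) (τ i) k ∈ Z)
    (β : M →ₗ[R] M →ₗ[R] A) (hZ : ∀ z ∈ Z, β z = 0) (hZ' : ∀ z ∈ Z, ∀ u, β u z = 0) :
    η • ∑ j, (β (f j) (s j) + β (s j) (f j)) = 0 := by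
  have := ra H G S (Cc.smul X η) X β hZ hZ' hl K tr lo
  have e : ∀ {u u' v v'}, u - u' ∈ Z → v - v' ∈ Z → β u v = β u' v' := fun {u u' v v'} h h' => by
    have a1 := hZ _ h
    have a2 := hZ' _ h' u'
    rw [map_sub, sub_eq_zero] at a1 a2
    rw [a1, a2]
  rw [← neg_eq_zero, ← Finset.sum_neg_distrib] at this
  rw [Fintype.sum_prod_type, Finset.smul_sum]
  refine (Finset.sum_congr rfl fun i _ => ?_).trans this
  rw [Fin.sum_univ_two, e (hf i 0) (hs i 0), e (hf i 1) (hs i 1), e (hs i 0) (hf i 0),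
    e (hs i 1) (hf i 1)]
  simp only [Pi.smul_apply, ac_smul, wp_smull, sc, rot, wp, map_smul, map_neg, LinearMap.smul_apply,
    LinearMap.neg_apply, Matrix.cons_val_zero, Matrix.cons_val_one, Matrix.cons_val_fin_one]
  module

/-- **isotropy** in the words of the block of pure algebra -/
theorem iso (H : Rw N w) (G : Gd Γ T a) (S : Sd N Γ c r ψ a) (X : Cc Γ T a x) (t : M)
    (hl : Function.Injective l) (K : ∀ i, Kl N Γ a (l i) (P i) (φ i) (τ i))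
    (tr : ∀ i, (r (φ i)).trace = 0)
    (lo : ∀ p ∈ T, (∀ i, l i ≠ p) → Lo Γ c a x x (.span R {t}) (.span R {t}) p) :
    Alg.Iso R t (fun j : ι × Fin 2 => x (φ j.1 ^ 2) j.2)
      fun j => sc w c r ψ x (l j.1) (φ j.1) (τ j.1) j.2 := fun A _ _ β h1 h2 => by
  have := iso_eta H G S X (Z := .span R {t}) hl K tr 1 (by simpa only [one_smul] using lo)
    (f := fun j => x (φ j.1 ^ 2) j.2) (s := fun j => sc w c r ψ x (l j.1) (φ j.1) (τ j.1) j.2)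
    (fun i k => by simp) (fun i k => by simp) β (fun z hz => ?_) fun z hz u => ?_
  · rwa [one_smul] at this
  · obtain ⟨b, rfl⟩ := Submodule.mem_span_singleton.1 hz
    rw [map_smul, h1, smul_zero]
  · obtain ⟨b, rfl⟩ := Submodule.mem_span_singleton.1 hz
    rw [map_smul, h2, smul_zero]

open Matrix in
/-- from all bilinear maps to a matrix identity -/
theorem mat {I κ J : Type} [Fintype I] [Fintype κ] [Fintype J] (B : Matrix κ I R)
    (f s : J → I → R) (η : R) (h : ∀ (A : Type) [AddCommGroup A] [Module R A]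
      (β : (I → R) →ₗ[R] (I → R) →ₗ[R] A), (∀ k, β (B k) = 0) → (∀ k v, β v (B k) = 0) →
      η • ∑ j, (β (f j) (s j) + β (s j) (f j)) = 0) : ∃ Z Z' : Matrix κ I R,
    η • ∑ j, (vecMulVec (f j) (s j) + vecMulVec (s j) (f j)) = Bᵀ * Z + Z'ᵀ * B := by
  classical
  let V : Submodule R (Matrix I I R) :=
    { carrier := {m | ∃ Z Z' : Matrix κ I R, m = Bᵀ * Z + Z'ᵀ * B}
      add_mem' := by
        rintro _ _ ⟨a, b, rfl⟩ ⟨c, d, rfl⟩
        exact ⟨a + c, b + d, by rw [transpose_add, Matrix.mul_add, Matrix.add_mul]; abel⟩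
      zero_mem' := ⟨0, 0, by simp⟩
      smul_mem' := by
        rintro r _ ⟨a, b, rfl⟩
        exact ⟨r • a, r • b, by rw [transpose_smul, Matrix.mul_smul, Matrix.smul_mul, smul_add]⟩ }
  let β : (I → R) →ₗ[R] (I → R) →ₗ[R] (Matrix I I R ⧸ V) :=
    LinearMap.mk₂ R (fun u v => V.mkQ (vecMulVec u v))
      (fun _ _ _ => by rw [add_vecMulVec, map_add]) (fun _ _ _ => by rw [smul_vecMulVec, map_smul])
      (fun _ _ _ => by rw [vecMulVec_add, map_add]) fun _ _ _ => by rw [vecMulVec_smul, map_smul]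
  have := h _ β (fun k => LinearMap.ext fun v => (Submodule.Quotient.mk_eq_zero V).2
    ⟨of (Pi.single k v), 0, ?_⟩) fun k v => (Submodule.Quotient.mk_eq_zero V).2
    ⟨0, of (Pi.single k v), ?_⟩
  · refine (Submodule.Quotient.mk_eq_zero V).1 (Eq.trans ?_ this)
    change V.mkQ _ = η • ∑ j, (V.mkQ _ + V.mkQ _)
    simp only [map_smul, map_sum, map_add]
  · ext i j
    simp [vecMulVec_apply, Matrix.mul_apply, Pi.single_apply, ite_apply]
  · ext i j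
    simp [vecMulVec_apply, Matrix.mul_apply, Pi.single_apply, ite_apply]

open Matrix in
/-- **isotropy** as a matrix identity: `π` presents the module `M`, the rows of `B` span the
preimage of `Z` -/
theorem iso_mat (H : Rw N w) (G : Gd Γ T a) (S : Sd N Γ c r ψ a) (X : Cc Γ T a x)
    {Z : Submodule R M} (hl : Function.Injective l)
    (K : ∀ i, Kl N Γ a (l i) (P i) (φ i) (τ i)) (tr : ∀ i, (r (φ i)).trace = 0) (η : R)
    (lo : ∀ p ∈ T, (∀ i, l i ≠ p) → Lo Γ c a (η • x) x Z Z p)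
    {I κ : Type} [Fintype I] [Fintype κ] (B : Matrix κ I R) (π : (I → R) →ₗ[R] M)
    (h1 : Function.Surjective π) (h2 : ∀ v, π v ∈ Z → v ∈ Submodule.span R (Set.range B))
    {f s : ι × Fin 2 → I → R} (hf : ∀ i k, π (f (i, k)) - x (φ i ^ 2) k ∈ Z)
    (hs : ∀ i k, π (s (i, k)) - sc w c r ψ x (l i) (φ i) (τ i) k ∈ Z) :
    ∃ U U' : Matrix κ I R,
      η • ∑ j, (vecMulVec (f j) (s j) + vecMulVec (s j) (f j)) = Bᵀ * U + U'ᵀ * B := by
  refine mat B f s η fun A _ _ β b1 b2 => ?_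
  have k1 : ∀ v, π v ∈ Z → β v = 0 := fun v hv =>
    (Submodule.span_le (p := LinearMap.ker β)).2 (Set.range_subset_iff.2 b1) (h2 v hv)
  have k2 : ∀ v, π v ∈ Z → β.flip v = 0 := fun v hv =>
    (Submodule.span_le (p := LinearMap.ker β.flip)).2
      (Set.range_subset_iff.2 fun k => LinearMap.ext (b2 k)) (h2 v hv)
  let e := π.quotKerEquivOfSurjective h1
  let d : ∀ {B : Type} [AddCommGroup B] [Module R B] (g : (I → R) →ₗ[R] B),
      (∀ v, π v = 0 → g v = 0) → M →ₗ[R] B := fun g hg =>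
    (LinearMap.ker π).liftQ g hg ∘ₗ e.symm.toLinearMap
  have hd : ∀ {B : Type} [AddCommGroup B] [Module R B] (g : (I → R) →ₗ[R] B) hg v,
      d g hg (π v) = g v := fun g hg v => by
    have : e.symm (π v) = Submodule.Quotient.mk v := e.symm_apply_eq.2 rfl
    change (LinearMap.ker π).liftQ g hg (e.symm (π v)) = _
    rw [this]; rfl
  let β1 := d β fun v hv => k1 v (hv ▸ Z.zero_mem)
  have q : ∀ v, π v ∈ Z → β1.flip v = 0 := fun v hv => LinearMap.ext fun u => by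
    obtain ⟨u, rfl⟩ := h1 u
    rw [LinearMap.flip_apply, hd]
    exact LinearMap.congr_fun (k2 v hv) u
  let β2 := (d β1.flip fun v hv => q v (hv ▸ Z.zero_mem)).flip
  have hb : ∀ u v, β2 (π u) (π v) = β u v := fun u v => by
    rw [LinearMap.flip_apply, hd, LinearMap.flip_apply, hd]
  have := iso_eta H G S X hl K tr η lo (f := π ∘ f) (s := π ∘ s) hf hs β2 (fun z hz => ?_)
    fun z hz u => ?_
  · simpa only [Function.comp, hb] using this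
  · obtain ⟨z, rfl⟩ := h1 z
    refine LinearMap.ext fun u => ?_
    obtain ⟨u, rfl⟩ := h1 u
    rw [hb, k1 z hz]; rfl
  · obtain ⟨z, rfl⟩ := h1 z
    obtain ⟨u, rfl⟩ := h1 u
    rw [hb]
    exact LinearMap.congr_fun (k2 z hz) u

end Vale.Agent.P004F.Ra
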